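import Vale.Agent.Lib.P069.Tower

namespace Vale.Agent.Results.P069.ReflexiveCounterexample

open Vale.Agent.Lib.P069

/-- There is an infinite-dimensional reflexive real Banach space whose norm is asymptotically
midpoint uniformly convex and which has no equivalent asymptotically uniformly convex norm. -/
theorem result :
    ∃ (X : Type) (_ : NormedAddCommGroup X) (_ : NormedSpace ℝ X),
      CompleteSpace X ∧ ¬ FiniteDimensional ℝ X ∧
      Function.Surjective (NormedSpace.inclusionInDoubleDual ℝ X) ∧
      IsAMUC (fun x : X => ‖x‖) ∧
      ∀ N : Seminorm ℝ X, IsEquivNorm N → ¬ IsAUC N :=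
  ⟨Top, inferInstance, inferInstance, top_complete, top_infinite, top_reflexive, top_amuc,
    top_not_auc⟩

end Vale.Agent.Results.P069.ReflexiveCounterexample
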